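import Mathlib

namespace Vale.Agent.P038.H154

open Finset Matrix

/-- A generic matrix `Γ` with support in the relation `N` (`N x u` means `u ∈ N[x]`). -/
theorem exists_generic (V : Type) [Fintype V] [DecidableEq V] (N : V → V → Prop) :
    ∃ (K : Type) (_ : Field K) (Γ : V → V → K), (∀ u x, ¬ N x u → Γ u x = 0) ∧
      ∀ (S : Finset V) (f : V → V), Set.InjOn f S → (∀ x ∈ S, N x (f x)) →
        (Matrix.of (fun (i j : S) => Γ (f i) j)).det ≠ 0 := by
  classical
  refine ⟨FractionRing (MvPolynomial (V × V) ℚ), inferInstance,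
    fun u x => if N x u then algebraMap (MvPolynomial (V × V) ℚ)
      (FractionRing (MvPolynomial (V × V) ℚ)) (MvPolynomial.X (u, x)) else 0, ?_, ?_⟩
  · intro u x h
    simp [h]
  · intro S f hf hN
    set M' : Matrix S S (MvPolynomial (V × V) ℚ) :=
      Matrix.of (fun (i j : S) => if N (j : V) (f i) then MvPolynomial.X (f i, (j : V)) else 0)
      with hM'
    have hmap : (Matrix.of (fun (i j : S) =>
        (if N (j : V) (f i) then
          algebraMap (MvPolynomial (V × V) ℚ) (FractionRing (MvPolynomial (V × V) ℚ))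
            (MvPolynomial.X (f i, (j : V))) else 0))) =
        (algebraMap (MvPolynomial (V × V) ℚ)
          (FractionRing (MvPolynomial (V × V) ℚ))).mapMatrix M' := by
      ext i j
      simp only [hM', RingHom.mapMatrix_apply, Matrix.map_apply, Matrix.of_apply]
      split_ifs
      · rfl
      · simp
    rw [hmap, ← RingHom.map_det]
    intro h0
    have hinj := IsFractionRing.injective (MvPolynomial (V × V) ℚ)
      (FractionRing (MvPolynomial (V × V) ℚ))
    have hdet : M'.det = 0 := by
      apply hinj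
      rw [h0, map_zero]
    have hev := congrArg (MvPolynomial.eval
      (fun p : V × V => if p.1 = f p.2 then (1 : ℚ) else 0)) hdet
    rw [RingHom.map_det, map_zero] at hev
    have hone : (MvPolynomial.eval
      (fun p : V × V => if p.1 = f p.2 then (1 : ℚ) else 0)).mapMatrix M' = 1 := by
      ext i j
      simp only [hM', RingHom.mapMatrix_apply, Matrix.map_apply, Matrix.of_apply,
        Matrix.one_apply]
      by_cases hij : i = j
      · subst hij
        simp [hN _ i.2]
      · have hne : f i ≠ f j := fun h => hij (Subtype.ext (hf i.2 j.2 h))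
        rw [if_neg hij]
        split_ifs
        · simp [hne]
        · simp
    rw [hone, Matrix.det_one] at hev
    exact one_ne_zero hev

/-- Block-diagonal generic injectivity: rows `a`. -/
theorem block_inj {V : Type} [Fintype V] [DecidableEq V] {N : V → V → Prop}
    {K : Type} [Field K] {Γ : V → V → K}
    (hΓ : ∀ (S : Finset V) (f : V → V), Set.InjOn f S → (∀ x ∈ S, N x (f x)) →
        (Matrix.of (fun (i j : S) => Γ (f i) j)).det ≠ 0)
    (A H : Finset (V × V)) (ι : V → V → V)
    (hinj : ∀ a x y, (a, x) ∈ A → (a, y) ∈ A → ι a x = ι a y → x = y)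
    (hN : ∀ a x, (a, x) ∈ A → N x (ι a x)) (hH : ∀ a x, (a, x) ∈ A → (a, ι a x) ∈ H)
    (v : A → K)
    (hv : ∀ h : H, ∑ α : A, (if α.1.1 = h.1.1 then Γ h.1.2 α.1.2 else 0) * v α = 0) :
    v = 0 := by
  classical
  funext ⟨⟨a, x0⟩, hα⟩
  set S : Finset V := univ.filter (fun x => (a, x) ∈ A) with hS
  have hmem : ∀ x : V, x ∈ S ↔ (a, x) ∈ A := by intro x; simp [hS]
  have hdet := hΓ S (ι a) (by
    intro x hx y hy hxy
    exact hinj a x y ((hmem x).1 hx) ((hmem y).1 hy) hxy) (by
    intro x hx
    exact hN a x ((hmem x).1 hx))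
  have hzero : (Matrix.of (fun (i j : S) => Γ (ι a i) j)).mulVec
      (fun j : S => v ⟨(a, j), (hmem j).1 j.2⟩) = 0 := by
    funext i
    have h1 := hv ⟨(a, ι a i), hH a i ((hmem i).1 i.2)⟩
    simp only at h1
    simp only [Matrix.mulVec, dotProduct, Matrix.of_apply, Pi.zero_apply]
    rw [← h1]
    -- sum over S equals the sum over A of the block
    have : ∀ α : A, (if α.1.1 = a then Γ (ι a i) α.1.2 else 0) * v α =
        if α.1.1 = a then Γ (ι a i) α.1.2 * v α else 0 := by
      intro α; split_ifs <;> simp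
    rw [Finset.sum_congr rfl (fun α _ => this α), ← Finset.sum_filter]
    refine Finset.sum_bij (fun (j : S) _ => (⟨(a, j), (hmem j).1 j.2⟩ : A)) ?_ ?_ ?_ ?_
    · intro j _; simp
    · intro j _ k _ hjk
      simp only [Subtype.mk.injEq, Prod.mk.injEq, true_and] at hjk
      exact Subtype.ext hjk
    · intro α hα'
      simp only [mem_filter, mem_univ, true_and] at hα'
      obtain ⟨⟨b, y⟩, hby⟩ := α
      simp only at hα'
      subst hα'
      exact ⟨⟨y, (hmem y).2 hby⟩, mem_univ _, rfl⟩
    · intro j _; rfl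
  have := Matrix.eq_zero_of_mulVec_eq_zero hdet hzero
  have h2 := congrFun this ⟨x0, (hmem x0).2 hα⟩
  simpa using h2

/-- THE SQUARE LEMMA. `N x u` means `u ∈ N[x]`. -/
theorem square {V : Type} [Fintype V] [DecidableEq V] (N : V → V → Prop)
    (A H G E : Finset (V × V))
    (hsq : ∀ a x a' u, (a, x) ∈ A → (a', u) ∈ E → N a' a → N x u →
      (a, u) ∈ H ∧ (a', x) ∈ G)
    (ι κ : V → V → V)
    (hι : ∀ a x y, (a, x) ∈ A → (a, y) ∈ A → ι a x = ι a y → x = y)
    (hιN : ∀ a x, (a, x) ∈ A → N x (ι a x)) (hιH : ∀ a x, (a, x) ∈ A → (a, ι a x) ∈ H)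
    (hκ : ∀ u a b, (a, u) ∈ E → (b, u) ∈ E → κ u a = κ u b → a = b)
    (hκN : ∀ u a, (a, u) ∈ E → N a (κ u a)) (hκH : ∀ u a, (a, u) ∈ E → (κ u a, u) ∈ H) :
    A.card + E.card ≤ G.card + H.card := by
  classical
  obtain ⟨K, _, Γ, h0, hΓ⟩ := exists_generic V N
  let MF : Matrix H A K := Matrix.of fun h α => if α.1.1 = h.1.1 then Γ h.1.2 α.1.2 else 0
  let MG : Matrix E H K := Matrix.of fun e h => if h.1.2 = e.1.2 then Γ h.1.1 e.1.1 else 0
  let M1 : Matrix G A K := Matrix.of fun g α => if α.1.2 = g.1.2 then Γ α.1.1 g.1.1 else 0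
  let M2 : Matrix E G K := Matrix.of fun e g => if g.1.1 = e.1.1 then Γ e.1.2 g.1.2 else 0
  have hcomm : MG * MF = M2 * M1 := by
    ext e α
    obtain ⟨⟨a', u⟩, he⟩ := e
    obtain ⟨⟨a, x⟩, hα⟩ := α
    simp only [Matrix.mul_apply, MG, MF, M1, M2, Matrix.of_apply]
    by_cases hn : N a' a ∧ N x u
    · obtain ⟨hh, hg⟩ := hsq a x a' u hα he hn.1 hn.2
      rw [Finset.sum_eq_single (⟨(a, u), hh⟩ : H), Finset.sum_eq_single (⟨(a', x), hg⟩ : G)]
      · simp [mul_comm]
      · rintro ⟨⟨b, y⟩, hb⟩ _ hne
        by_cases h1 : b = a'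
        · by_cases h2 : x = y
          · subst h1; subst h2; exact absurd rfl hne
          · simp [h2]
        · simp [h1]
      · intro h; exact absurd (mem_univ _) h
      · rintro ⟨⟨b, y⟩, hb⟩ _ hne
        by_cases h1 : y = u
        · by_cases h2 : a = b
          · subst h1; subst h2; exact absurd rfl hne
          · simp [h2]
        · simp [h1]
      · intro h; exact absurd (mem_univ _) h
    · have hz : Γ a a' = 0 ∨ Γ u x = 0 := by
        by_cases h1 : N a' a
        · right; apply h0; exact fun h2 => hn ⟨h1, h2⟩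
        · left; exact h0 _ _ h1
      rw [Finset.sum_eq_zero, Finset.sum_eq_zero]
      · rintro ⟨⟨b, y⟩, hb⟩ _
        by_cases h1 : b = a'
        · by_cases h2 : x = y
          · subst h1; subst h2
            rcases hz with hz | hz <;> simp [hz]
          · simp [h2]
        · simp [h1]
      · rintro ⟨⟨b, y⟩, hb⟩ _
        by_cases h1 : y = u
        · by_cases h2 : a = b
          · subst h1; subst h2
            rcases hz with hz | hz <;> simp [hz]
          · simp [h2]
        · simp [h1]
  -- injectivity of MF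
  have hF : Function.Injective MF.mulVecLin := by
    rw [← LinearMap.ker_eq_bot, LinearMap.ker_eq_bot']
    intro v hv
    refine block_inj (N := N) hΓ A H ι hι hιN hιH v ?_
    intro h
    have := congrFun hv h
    simpa [MF, Matrix.mulVecLin_apply, Matrix.mulVec, dotProduct] using this
  -- surjectivity of MG, from injectivity of the transpose
  have hGT : Function.Injective MGᵀ.mulVecLin := by
    rw [← LinearMap.ker_eq_bot, LinearMap.ker_eq_bot']
    intro v hv
    -- swap the coordinates
    let A' : Finset (V × V) := E.image Prod.swap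
    let H' : Finset (V × V) := H.image Prod.swap
    have hA' : ∀ a u, (u, a) ∈ A' ↔ (a, u) ∈ E := by
      intro a u
      simp [A']
    have hH' : ∀ a u, (u, a) ∈ H' ↔ (a, u) ∈ H := by
      intro a u
      simp [H']
    let w : A' → K := fun α => v ⟨(α.1.2, α.1.1), (hA' _ _).1 α.2⟩
    have hw : w = 0 := by
      refine block_inj (N := N) hΓ A' H' κ
        (fun u a b h1 h2 h3 => hκ u a b ((hA' _ _).1 h1) ((hA' _ _).1 h2) h3)
        (fun u a h1 => hκN u a ((hA' _ _).1 h1))
        (fun u a h1 => (hH' _ _).2 (hκH u a ((hA' _ _).1 h1))) w ?_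
      rintro ⟨⟨u, a⟩, h⟩
      have h1 := congrFun hv ⟨(a, u), (hH' _ _).1 h⟩
      simp only [MG, Matrix.mulVecLin_apply, Matrix.mulVec, dotProduct, Matrix.transpose_apply,
        Matrix.of_apply, Pi.zero_apply] at h1
      refine Eq.trans ?_ h1
      refine Finset.sum_bij (fun (α : A') _ => (⟨(α.1.2, α.1.1), (hA' _ _).1 α.2⟩ : E))
        ?_ ?_ ?_ ?_
      · intro α _; exact mem_univ _
      · rintro ⟨⟨b, y⟩, hb⟩ _ ⟨⟨c, z⟩, hc⟩ _ hbc
        simp only [Subtype.mk.injEq, Prod.mk.injEq] at hbc ⊢
        exact ⟨hbc.2, hbc.1⟩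
      · rintro ⟨⟨b, y⟩, hb⟩ _
        exact ⟨⟨(y, b), (hA' _ _).2 hb⟩, mem_univ _, rfl⟩
      · rintro ⟨⟨b, y⟩, hb⟩ _
        simp only [w]
        by_cases hbu : b = u
        · simp [hbu]
        · have : ¬ u = b := fun h => hbu h.symm
          simp [hbu, this]
    funext ⟨⟨a, u⟩, he⟩
    have := congrFun hw ⟨(u, a), (hA' _ _).2 he⟩
    simpa [w] using this
  -- dimension count
  have hrG : Module.finrank K (LinearMap.range MG.mulVecLin) = E.card := by
    have h1 : MG.rank = MGᵀ.rank := (Matrix.rank_transpose MG).symm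
    have h2 : MGᵀ.rank = E.card := by
      unfold Matrix.rank
      rw [LinearMap.finrank_range_of_inj hGT]
      simp
    have h3 : MG.rank = Module.finrank K (LinearMap.range MG.mulVecLin) := rfl
    rw [← h3, h1, h2]
  have hkG : Module.finrank K (LinearMap.ker MG.mulVecLin) + E.card = H.card := by
    have := LinearMap.finrank_range_add_finrank_ker MG.mulVecLin
    rw [hrG] at this
    have hc : Module.finrank K (H → K) = H.card := by simp
    rw [hc] at this
    omega
  have hcomp : (MG * MF).mulVecLin = MG.mulVecLin ∘ₗ MF.mulVecLin := Matrix.mulVecLin_mul MG MF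
  have hker : Module.finrank K (LinearMap.ker (MG * MF).mulVecLin) ≤
      Module.finrank K (LinearMap.ker MG.mulVecLin) := by
    have hmem : ∀ v : LinearMap.ker (MG * MF).mulVecLin,
        MF.mulVecLin v.1 ∈ LinearMap.ker MG.mulVecLin := by
      rintro ⟨v, hv⟩
      rw [LinearMap.mem_ker] at hv ⊢
      rw [hcomp] at hv
      exact hv
    let φ : LinearMap.ker (MG * MF).mulVecLin →ₗ[K] LinearMap.ker MG.mulVecLin :=
      LinearMap.codRestrict _ (MF.mulVecLin.domRestrict _) hmem
    apply LinearMap.finrank_le_finrank_of_injective (f := φ)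
    intro v w hvw
    have := congrArg Subtype.val hvw
    exact Subtype.ext (hF this)
  have hrank : Module.finrank K (LinearMap.range (MG * MF).mulVecLin) ≤ G.card := by
    have h1 : (MG * MF).rank = Module.finrank K (LinearMap.range (MG * MF).mulVecLin) := rfl
    rw [← h1, hcomm]
    calc (M2 * M1).rank ≤ M2.rank := Matrix.rank_mul_le_left M2 M1
      _ ≤ Fintype.card G := Matrix.rank_le_card_width M2
      _ = G.card := by simp
  have htot := LinearMap.finrank_range_add_finrank_ker (MG * MF).mulVecLin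
  have hcA : Module.finrank K (A → K) = A.card := by simp
  rw [hcA] at htot
  omega

end Vale.Agent.P038.H154
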